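import Mathlib

/-!
P092 (helper671): reduction theory of `SL_n(ℤ)` with Lebesgue measure on `M_n(ℝ)`: a set of finite
measure meeting every `SL_n(ℤ)`-orbit of matrices with `0 < |det| ≤ 1`.
-/

open Matrix MeasureTheory

namespace Vale.Agent.P092.H671

/-- Transvections as elements of `SL_n(ℤ)`. -/
def tv {n : ℕ} (i j : Fin n) (h : i ≠ j) (c : ℤ) : SpecialLinearGroup (Fin n) ℤ :=
  ⟨Matrix.transvection i j c, Matrix.det_transvection_of_ne i j h c⟩

theorem tv_mulVec {n : ℕ} (i j : Fin n) (h : i ≠ j) (c : ℤ) (z : Fin n → ℤ) :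
    (tv i j h c : Matrix (Fin n) (Fin n) ℤ) *ᵥ z = Function.update z i (z i + c * z j) := by
  ext k
  simp only [tv, Matrix.transvection, Matrix.add_mulVec, Matrix.one_mulVec, Pi.add_apply]
  rw [Matrix.single_mulVec]
  by_cases hk : k = i
  · subst hk; simp
  · simp [hk]

theorem mulVec_mul {n : ℕ} (a b : SpecialLinearGroup (Fin n) ℤ) (z : Fin n → ℤ) :
    ((a * b : SpecialLinearGroup (Fin n) ℤ) : Matrix (Fin n) (Fin n) ℤ) *ᵥ z =
      (a : Matrix (Fin n) (Fin n) ℤ) *ᵥ ((b : Matrix (Fin n) (Fin n) ℤ) *ᵥ z) :=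
  (Matrix.mulVec_mulVec z a.1 b.1).symm

theorem mulVec_one' {n : ℕ} (z : Fin n → ℤ) :
    ((1 : SpecialLinearGroup (Fin n) ℤ) : Matrix (Fin n) (Fin n) ℤ) *ᵥ z = z :=
  Matrix.one_mulVec z

theorem exists_gcd {n : ℕ} (N : ℕ) : ∀ z : Fin (n + 1) → ℤ, ∑ i, (z i).natAbs ≤ N →
    ∃ γ : SpecialLinearGroup (Fin (n + 1)) ℤ, ∀ i, i ≠ 0 →
      ((γ : Matrix (Fin (n + 1)) (Fin (n + 1)) ℤ) *ᵥ z) i = 0 := by
  induction N with
  | zero =>
    intro z hz
    refine ⟨1, fun i _ => ?_⟩
    have h1 : ∑ i, (z i).natAbs = 0 := by omega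
    have h2 : (z i).natAbs = 0 := (Finset.sum_eq_zero_iff.1 h1) i (Finset.mem_univ i)
    simpa using h2
  | succ N ih =>
    intro z hz
    by_cases hex : ∃ i j, i ≠ j ∧ z j ≠ 0 ∧ (z j).natAbs ≤ (z i).natAbs
    · obtain ⟨i, j, hij, hj, hle⟩ := hex
      obtain ⟨c, hc⟩ : ∃ c : ℤ, (z i + c * z j).natAbs < (z i).natAbs := by
        rcases lt_or_gt_of_ne hj with hj' | hj'
        · rcases le_total 0 (z i) with hi' | hi'
          · refine ⟨1, ?_⟩
            have := Int.natAbs_of_nonneg hi'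
            omega
          · refine ⟨-1, ?_⟩
            omega
        · rcases le_total 0 (z i) with hi' | hi'
          · refine ⟨-1, ?_⟩
            omega
          · refine ⟨1, ?_⟩
            omega
      have hsum : ∑ k, (Function.update z i (z i + c * z j) k).natAbs ≤ N := by
        have h1 : ∑ k, (Function.update z i (z i + c * z j) k).natAbs < ∑ k, (z k).natAbs := by
          refine Finset.sum_lt_sum (fun k _ => ?_) ⟨i, Finset.mem_univ i, ?_⟩
          · by_cases hk : k = i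
            · subst hk; simp only [Function.update_self]; exact hc.le
            · rw [Function.update_of_ne hk]
          · simpa using hc
        omega
      obtain ⟨γ, hγ⟩ := ih _ hsum
      refine ⟨γ * tv i j hij c, fun k hk => ?_⟩
      rw [mulVec_mul, tv_mulVec]
      exact hγ k hk
    · push Not at hex
      -- at most one nonzero entry
      by_cases h0 : ∀ i, i ≠ 0 → z i = 0
      · exact ⟨1, fun i hi => by simpa using h0 i hi⟩
      · push Not at h0
        obtain ⟨i, hi, hzi⟩ := h0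
        have hother : ∀ k, k ≠ i → z k = 0 := by
          intro k hk
          by_contra hzk
          have h1 := hex i k hk.symm hzk
          have h2 := hex k i hk hzi
          omega
        refine ⟨tv i 0 hi (-1) * tv 0 i hi.symm 1, fun k hk => ?_⟩
        rw [mulVec_mul, tv_mulVec, tv_mulVec]
        by_cases hki : k = i
        · subst hki
          rw [Function.update_self, Function.update_of_ne hi, Function.update_self, hother 0 hi.symm]
          ring
        · rw [Function.update_of_ne hki, Function.update_of_ne hk]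
          exact hother k hki

/-- Every integral vector is a multiple of the first column of a matrix of `SL_{n+1}(ℤ)`. -/
theorem exists_col {n : ℕ} (z : Fin (n + 1) → ℤ) :
    ∃ (γ : SpecialLinearGroup (Fin (n + 1)) ℤ) (d : ℤ),
      ∀ i, z i = d * (γ : Matrix (Fin (n + 1)) (Fin (n + 1)) ℤ) i 0 := by
  obtain ⟨γ, hγ⟩ := exists_gcd (∑ i, (z i).natAbs) z le_rfl
  obtain ⟨w, hw⟩ : ∃ w, w = (γ : Matrix (Fin (n + 1)) (Fin (n + 1)) ℤ) *ᵥ z := ⟨_, rfl⟩
  refine ⟨γ⁻¹, w 0, fun i => ?_⟩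
  have h1 : z = ((γ⁻¹ : SpecialLinearGroup (Fin (n + 1)) ℤ) : Matrix _ _ ℤ) *ᵥ w := by
    rw [hw, ← mulVec_mul, inv_mul_cancel, mulVec_one']
  have h2 : w = Pi.single 0 (w 0) := by
    ext k
    by_cases hk : k = 0
    · subst hk; simp
    · rw [Pi.single_eq_of_ne hk, hw]; exact hγ k hk
  conv_lhs => rw [h1, h2]
  rw [Matrix.mulVec_single]
  simp [mul_comm]

/-- Blichfeldt: a lattice of covolume at most one has a nonzero vector in `[-2, 2]^{n+1}`. -/
theorem exists_small {n : ℕ} (x : Matrix (Fin (n + 1)) (Fin (n + 1)) ℝ) (h0 : x.det ≠ 0)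
    (h1 : |x.det| ≤ 1) :
    ∃ z : Fin (n + 1) → ℤ, z ≠ 0 ∧ ∀ i, |(x *ᵥ fun j => (z j : ℝ)) i| ≤ 2 := by
  obtain ⟨s, hs⟩ : ∃ s : Set (Fin (n + 1) → ℝ), s = (Matrix.toLin' x) ⁻¹'
    (Set.pi Set.univ fun _ => Set.Icc (-1 : ℝ) 1) := ⟨_, rfl⟩
  have hsm : MeasurableSet s := by
    rw [hs]
    refine MeasurableSet.preimage (MeasurableSet.pi Set.countable_univ fun _ _ => measurableSet_Icc) ?_
    exact (LinearMap.continuous_of_finiteDimensional _).measurable
  have hvol : volume (ZSpan.fundamentalDomain (Pi.basisFun ℝ (Fin (n + 1)))) < volume s := by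
    rw [ZSpan.fundamentalDomain_pi_basisFun, volume_pi, Measure.pi_pi, hs,
      Measure.addHaar_preimage_linearMap _ (by rwa [LinearMap.det_toLin']), Measure.pi_pi,
      LinearMap.det_toLin']
    simp only [Real.volume_Ico, sub_zero, ENNReal.ofReal_one, Finset.prod_const_one,
      Real.volume_Icc, Finset.prod_const, Finset.card_univ, Fintype.card_fin]
    have h2 : (1 : ENNReal) ≤ ENNReal.ofReal |(x.det)⁻¹| := by
      rw [← ENNReal.ofReal_one]
      refine ENNReal.ofReal_le_ofReal ?_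
      rw [abs_inv]
      exact (one_le_inv₀ (abs_pos.2 h0)).2 h1
    have h3 : (1 : ENNReal) < ENNReal.ofReal (1 - -1) ^ (n + 1) := by
      rw [← ENNReal.ofReal_pow (by norm_num)]
      rw [← ENNReal.ofReal_one, ENNReal.ofReal_lt_ofReal_iff (by positivity)]
      exact one_lt_pow₀ (by norm_num) (by omega)
    calc (1 : ENNReal) < ENNReal.ofReal (1 - -1) ^ (n + 1) := h3
      _ = 1 * ENNReal.ofReal (1 - -1) ^ (n + 1) := (one_mul _).symm
      _ ≤ _ := by gcongr
  have hcount : Countable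
      ↥(Submodule.span ℤ (Set.range (Pi.basisFun ℝ (Fin (n + 1))))).toAddSubgroup :=
    inferInstanceAs (Countable ↥(Submodule.span ℤ (Set.range (Pi.basisFun ℝ (Fin (n + 1))))))
  obtain ⟨u, v, huv, hdis⟩ := exists_pair_mem_lattice_not_disjoint_vadd
    (ZSpan.isAddFundamentalDomain' (Pi.basisFun ℝ (Fin (n + 1))) volume) hsm.nullMeasurableSet hvol
  obtain ⟨w, hw1, hw2⟩ := Set.not_disjoint_iff.1 hdis
  obtain ⟨a, ha, rfl⟩ := hw1
  obtain ⟨b, hb, hab⟩ := hw2
  have hint : ∀ u : (Submodule.span ℤ (Set.range (Pi.basisFun ℝ (Fin (n + 1))))).toAddSubgroup,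
      ∃ z : Fin (n + 1) → ℤ, ∀ j, (u : Fin (n + 1) → ℝ) j = z j := by
    intro u
    have h := ((Pi.basisFun ℝ (Fin (n + 1))).mem_span_iff_repr_mem ℤ (u : Fin (n + 1) → ℝ)).1 u.2
    choose z hz using h
    exact ⟨z, fun j => by simpa using (hz j).symm⟩
  obtain ⟨p, hp⟩ := hint u
  obtain ⟨q, hq⟩ := hint v
  have hab' : ∀ j, (v : Fin (n + 1) → ℝ) j + b j = (u : Fin (n + 1) → ℝ) j + a j := fun j =>
    congrFun hab j
  refine ⟨p - q, ?_, fun i => ?_⟩
  · intro h
    apply huv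
    have h4 : p = q := sub_eq_zero.1 h
    apply Subtype.ext
    ext j
    rw [hp, hq, h4]
  · have h5 : (fun j => (((p - q) j : ℤ) : ℝ)) = b - a := by
      ext j
      have := hab' j
      simp only [Pi.sub_apply, Int.cast_sub]
      rw [hp, hq] at this
      linarith
    rw [h5, Matrix.mulVec_sub, Pi.sub_apply]
    rw [hs] at ha hb
    have ha' : ∀ i, (x *ᵥ a) i ∈ Set.Icc (-1 : ℝ) 1 := fun i => by
      have := ha i (Set.mem_univ i)
      simpa using this
    have hb' : ∀ i, (x *ᵥ b) i ∈ Set.Icc (-1 : ℝ) 1 := fun i => by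
      have := hb i (Set.mem_univ i)
      simpa using this
    have h6 := ha' i
    have h7 := hb' i
    rw [Set.mem_Icc] at h6 h7
    rw [abs_le]
    constructor <;> linarith [h6.1, h6.2, h7.1, h7.2]

section meas

variable {E F : Type*} [NormedAddCommGroup E] [NormedSpace ℝ E] [FiniteDimensional ℝ E]
  [MeasurableSpace E] [BorelSpace E] [NormedAddCommGroup F] [NormedSpace ℝ F]
  [FiniteDimensional ℝ F] [MeasurableSpace F] [BorelSpace F]

omit [FiniteDimensional ℝ E] in
/-- Finiteness of the measure of a set is preserved by linear isomorphisms. -/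
theorem finite_preimage (μ : Measure E) [μ.IsAddHaarMeasure] (ν : Measure F) [ν.IsAddHaarMeasure]
    (e : E ≃L[ℝ] F) {Q : Set F} (hQ : MeasurableSet Q) (h : ν Q < ⊤) : μ (e ⁻¹' Q) < ⊤ := by
  have h1 : (μ.map e).IsAddHaarMeasure := ContinuousLinearEquiv.isAddHaarMeasure_map e μ
  have h2 : μ.map e = Measure.addHaarScalarFactor (μ.map e) ν • ν :=
    Measure.isAddLeftInvariant_eq_smul _ _
  have h3 : μ (e ⁻¹' Q) = (μ.map e) Q :=
    (Measure.map_apply e.continuous.measurable hQ).symm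
  rw [h3, h2]
  simp only [Measure.smul_apply, ENNReal.smul_def, smul_eq_mul]
  exact ENNReal.mul_lt_top ENNReal.coe_lt_top h

end meas

/-- The set of quadruples reduced relative to `S`. -/
def QQ {n : ℕ} (S : Set (Fin n → Fin n → ℝ)) :
    Set ((ℝ × (Fin n → ℝ)) × ((Fin n → ℝ) × (Fin n → Fin n → ℝ))) :=
  {p | p.1.1 ≠ 0 ∧ |p.1.1| ≤ 2 ∧ (∀ i, |p.1.2 i| ≤ 2) ∧
    (∀ j, p.1.1⁻¹ * p.2.1 j ∈ Set.Icc (0 : ℝ) 1) ∧
    (fun i j => |p.1.1| ^ ((n : ℝ)⁻¹) * (p.2.2 i j - p.1.2 i * (p.1.1⁻¹ * p.2.1 j))) ∈ S}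

theorem measurableSet_QQ {n : ℕ} {S : Set (Fin n → Fin n → ℝ)} (hS : MeasurableSet S) :
    MeasurableSet (QQ S) := by
  unfold QQ
  refine MeasurableSet.inter ?_ (MeasurableSet.inter ?_ (MeasurableSet.inter ?_
    (MeasurableSet.inter ?_ ?_)))
  · have : Measurable fun p : (ℝ × (Fin n → ℝ)) × ((Fin n → ℝ) × (Fin n → Fin n → ℝ)) => p.1.1 := by
      fun_prop
    exact this (measurableSet_singleton 0).compl
  · change MeasurableSet {a : (ℝ × (Fin n → ℝ)) × ((Fin n → ℝ) × (Fin n → Fin n → ℝ)) |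
      |a.1.1| ≤ 2}
    exact measurableSet_le (by fun_prop) (by fun_prop)
  · have : {a : (ℝ × (Fin n → ℝ)) × ((Fin n → ℝ) × (Fin n → Fin n → ℝ)) | ∀ i, |a.1.2 i| ≤ 2} =
        ⋂ i, {a | |a.1.2 i| ≤ 2} := by ext; simp
    change MeasurableSet {a : (ℝ × (Fin n → ℝ)) × ((Fin n → ℝ) × (Fin n → Fin n → ℝ)) |
      ∀ i, |a.1.2 i| ≤ 2}
    rw [this]
    exact MeasurableSet.iInter fun i => measurableSet_le (by fun_prop) (by fun_prop)
  · change MeasurableSet {a : (ℝ × (Fin n → ℝ)) × ((Fin n → ℝ) × (Fin n → Fin n → ℝ)) |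
      ∀ j, a.1.1⁻¹ * a.2.1 j ∈ Set.Icc (0 : ℝ) 1}
    have : {a : (ℝ × (Fin n → ℝ)) × ((Fin n → ℝ) × (Fin n → Fin n → ℝ)) |
      ∀ j, a.1.1⁻¹ * a.2.1 j ∈ Set.Icc (0 : ℝ) 1} =
        ⋂ j, {a | a.1.1⁻¹ * a.2.1 j ∈ Set.Icc (0 : ℝ) 1} := by ext; simp
    rw [this]
    refine MeasurableSet.iInter fun j => ?_
    have hm : Measurable fun a : (ℝ × (Fin n → ℝ)) × ((Fin n → ℝ) × (Fin n → Fin n → ℝ)) =>
      a.1.1⁻¹ * a.2.1 j := by fun_prop
    exact hm measurableSet_Icc
  · refine (?_ : Measurable fun a : (ℝ × (Fin n → ℝ)) × ((Fin n → ℝ) × (Fin n → Fin n → ℝ)) =>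
      (fun i j => |a.1.1| ^ ((n : ℝ)⁻¹) * (a.2.2 i j - a.1.2 i * (a.1.1⁻¹ * a.2.1 j)))) hS
    refine measurable_pi_lambda _ fun i => measurable_pi_lambda _ fun j => ?_
    fun_prop

theorem volume_QQ {n : ℕ} {S : Set (Fin n → Fin n → ℝ)} (hS : MeasurableSet S)
    (hfin : volume S < ⊤) : volume (QQ S) < ⊤ := by
  have hslice : ∀ (a : ℝ) (b : Fin n → ℝ), a ≠ 0 →
      volume {q : (Fin n → ℝ) × (Fin n → Fin n → ℝ) | (∀ j, a⁻¹ * q.1 j ∈ Set.Icc (0 : ℝ) 1) ∧
        (fun i j => |a| ^ ((n : ℝ)⁻¹) * (q.2 i j - b i * (a⁻¹ * q.1 j))) ∈ S} ≤ volume S := by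
    intro a b ha
    have hm : MeasurableSet {q : (Fin n → ℝ) × (Fin n → Fin n → ℝ) |
        (∀ j, a⁻¹ * q.1 j ∈ Set.Icc (0 : ℝ) 1) ∧
        (fun i j => |a| ^ ((n : ℝ)⁻¹) * (q.2 i j - b i * (a⁻¹ * q.1 j))) ∈ S} := by
      refine MeasurableSet.inter ?_ ?_
      · change MeasurableSet {q : (Fin n → ℝ) × (Fin n → Fin n → ℝ) |
          ∀ j, a⁻¹ * q.1 j ∈ Set.Icc (0 : ℝ) 1}
        have : {q : (Fin n → ℝ) × (Fin n → Fin n → ℝ) | ∀ j, a⁻¹ * q.1 j ∈ Set.Icc (0 : ℝ) 1} =
          ⋂ j, {q | a⁻¹ * q.1 j ∈ Set.Icc (0 : ℝ) 1} := by ext; simp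
        rw [this]
        refine MeasurableSet.iInter fun j => ?_
        have hm : Measurable fun q : (Fin n → ℝ) × (Fin n → Fin n → ℝ) => a⁻¹ * q.1 j := by fun_prop
        exact hm measurableSet_Icc
      · refine (?_ : Measurable fun q : (Fin n → ℝ) × (Fin n → Fin n → ℝ) =>
          (fun i j => |a| ^ ((n : ℝ)⁻¹) * (q.2 i j - b i * (a⁻¹ * q.1 j)))) hS
        refine measurable_pi_lambda _ fun i => measurable_pi_lambda _ fun j => ?_
        fun_prop
    have hc0 : 0 < |a| ^ ((n : ℝ)⁻¹) := Real.rpow_pos_of_pos (abs_pos.2 ha) _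
    have hcn : (|a| ^ ((n : ℝ)⁻¹)) ^ (n * n) = |a| ^ n := by
      rw [pow_mul]
      rcases Nat.eq_zero_or_pos n with hn | hn
      · subst hn; simp
      · rw [Real.rpow_inv_natCast_pow (abs_nonneg a) (by omega)]
    rw [Measure.volume_eq_prod, Measure.prod_apply hm]
    have hbox : volume {r : Fin n → ℝ | ∀ j, a⁻¹ * r j ∈ Set.Icc (0 : ℝ) 1} =
        ENNReal.ofReal (|a| ^ n) := by
      have h1 : {r : Fin n → ℝ | ∀ j, a⁻¹ * r j ∈ Set.Icc (0 : ℝ) 1} =
          (fun r => a⁻¹ • r) ⁻¹' (Set.pi Set.univ fun _ => Set.Icc (0 : ℝ) 1) := by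
        ext r
        simp only [Set.mem_preimage, Set.mem_pi, Set.mem_univ, true_implies]
        rfl
      rw [h1, Measure.addHaar_preimage_smul _ (inv_ne_zero ha), volume_pi, Measure.pi_pi]
      simp [abs_pow]
    have hin : ∀ r : Fin n → ℝ, volume (Prod.mk r ⁻¹' {q : (Fin n → ℝ) × (Fin n → Fin n → ℝ) |
        (∀ j, a⁻¹ * q.1 j ∈ Set.Icc (0 : ℝ) 1) ∧
        (fun i j => |a| ^ ((n : ℝ)⁻¹) * (q.2 i j - b i * (a⁻¹ * q.1 j))) ∈ S}) ≤
        Set.indicator {r : Fin n → ℝ | ∀ j, a⁻¹ * r j ∈ Set.Icc (0 : ℝ) 1}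
          (fun _ => ENNReal.ofReal ((|a| ^ n)⁻¹) * volume S) r := by
      intro r
      by_cases hr : ∀ j, a⁻¹ * r j ∈ Set.Icc (0 : ℝ) 1
      · rw [Set.indicator_of_mem (by exact hr)]
        have h2 : (Prod.mk r ⁻¹' {q : (Fin n → ℝ) × (Fin n → Fin n → ℝ) |
            (∀ j, a⁻¹ * q.1 j ∈ Set.Icc (0 : ℝ) 1) ∧
            (fun i j => |a| ^ ((n : ℝ)⁻¹) * (q.2 i j - b i * (a⁻¹ * q.1 j))) ∈ S}) ⊆
            (fun Y : Fin n → Fin n → ℝ => Y + (fun i j => -(b i * (a⁻¹ * r j)))) ⁻¹'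
              ((fun Y : Fin n → Fin n → ℝ => (|a| ^ ((n : ℝ)⁻¹)) • Y) ⁻¹' S) := by
          intro Y hY
          have h3 := hY.2
          have h5 : (fun i j => |a| ^ ((n : ℝ)⁻¹) * (Y i j - b i * (a⁻¹ * r j))) =
              (|a| ^ ((n : ℝ)⁻¹)) • (Y + (fun i j => -(b i * (a⁻¹ * r j)))) := by
            ext i j
            simp only [Pi.smul_apply, Pi.add_apply, smul_eq_mul]
            ring
          change (|a| ^ ((n : ℝ)⁻¹)) • (Y + (fun i j => -(b i * (a⁻¹ * r j)))) ∈ S
          rw [← h5]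
          exact h3
        refine (measure_mono h2).trans ?_
        rw [measure_preimage_add_right, Measure.addHaar_preimage_smul _ hc0.ne']
        have h4 : Module.finrank ℝ (Fin n → Fin n → ℝ) = n * n := by
          rw [Module.finrank_pi_fintype]
          simp
        rw [h4, hcn]
        rw [abs_of_pos (by positivity)]
      · rw [Set.indicator_of_notMem (by exact hr)]
        have h2 : (Prod.mk r ⁻¹' {q : (Fin n → ℝ) × (Fin n → Fin n → ℝ) |
            (∀ j, a⁻¹ * q.1 j ∈ Set.Icc (0 : ℝ) 1) ∧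
            (fun i j => |a| ^ ((n : ℝ)⁻¹) * (q.2 i j - b i * (a⁻¹ * q.1 j))) ∈ S}) = ∅ := by
          ext Y
          simp only [Set.mem_preimage, Set.mem_ofPred_eq, Set.mem_empty_iff_false, iff_false]
          exact fun h => hr h.1
        rw [h2, measure_empty]
    refine (lintegral_mono hin).trans ?_
    have hbm : MeasurableSet {r : Fin n → ℝ | ∀ j, a⁻¹ * r j ∈ Set.Icc (0 : ℝ) 1} := by
      have : {r : Fin n → ℝ | ∀ j, a⁻¹ * r j ∈ Set.Icc (0 : ℝ) 1} =
          ⋂ j, {r | a⁻¹ * r j ∈ Set.Icc (0 : ℝ) 1} := by ext; simp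
      rw [this]
      refine MeasurableSet.iInter fun j => ?_
      have hm : Measurable fun r : Fin n → ℝ => a⁻¹ * r j := by fun_prop
      exact hm measurableSet_Icc
    rw [lintegral_indicator hbm, lintegral_const, Measure.restrict_apply_univ, hbox,
      mul_comm, ← mul_assoc, ← ENNReal.ofReal_mul (by positivity)]
    rw [mul_inv_cancel₀ (by positivity), ENNReal.ofReal_one, one_mul]
  have hm := measurableSet_QQ hS
  rw [Measure.volume_eq_prod, Measure.prod_apply hm]
  have hin : ∀ p : ℝ × (Fin n → ℝ), volume (Prod.mk p ⁻¹' QQ S) ≤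
      Set.indicator (Set.Icc (-2 : ℝ) 2 ×ˢ Set.pi Set.univ fun _ => Set.Icc (-2 : ℝ) 2)
        (fun _ => volume S) p := by
    rintro ⟨a, b⟩
    by_cases hp : (a, b) ∈ (Set.Icc (-2 : ℝ) 2 ×ˢ Set.pi Set.univ fun _ : Fin n => Set.Icc (-2 : ℝ) 2)
    · rw [Set.indicator_of_mem hp]
      by_cases ha : a = 0
      · have : Prod.mk (a, b) ⁻¹' QQ S = ∅ := by
          ext q
          simp only [QQ, Set.mem_preimage, Set.mem_ofPred_eq, Set.mem_empty_iff_false, iff_false]
          exact fun h => h.1 ha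
        rw [this, measure_empty]
        exact bot_le
      · refine (measure_mono ?_).trans (hslice a b ha)
        intro q hq
        exact ⟨hq.2.2.2.1, hq.2.2.2.2⟩
    · rw [Set.indicator_of_notMem hp]
      have : Prod.mk (a, b) ⁻¹' QQ S = ∅ := by
        ext q
        simp only [QQ, Set.mem_preimage, Set.mem_ofPred_eq, Set.mem_empty_iff_false, iff_false]
        intro h
        exact hp ⟨abs_le.1 h.2.1, fun i _ => abs_le.1 (h.2.2.1 i)⟩
      rw [this, measure_empty]
  refine (lintegral_mono hin).trans_lt ?_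
  rw [lintegral_indicator (measurableSet_Icc.prod (MeasurableSet.pi Set.countable_univ
    fun _ _ => measurableSet_Icc)), lintegral_const, Measure.restrict_apply_univ]
  refine ENNReal.mul_lt_top hfin ?_
  rw [Measure.volume_eq_prod, Measure.prod_prod, volume_pi, Measure.pi_pi]
  refine ENNReal.mul_lt_top (by simp) ?_
  simp only [Real.volume_Icc, Finset.prod_const]
  exact ENNReal.pow_lt_top ENNReal.ofReal_lt_top


section cover

/-- The decomposition of a matrix into corner, first column, first row and block. -/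
def dec (n : ℕ) : (Fin (n + 1) → Fin (n + 1) → ℝ) ≃ₗ[ℝ]
    ((ℝ × (Fin n → ℝ)) × ((Fin n → ℝ) × (Fin n → Fin n → ℝ))) where
  toFun x := ((x 0 0, fun i => x i.succ 0), (fun j => x 0 j.succ, fun i j => x i.succ j.succ))
  invFun p := fun i j => Fin.cases (Fin.cases p.1.1 p.2.1 j)
    (fun i' => Fin.cases (p.1.2 i') (p.2.2 i') j) i
  map_add' x y := rfl
  map_smul' c x := rfl
  left_inv x := by
    ext i j
    refine Fin.cases ?_ (fun i' => ?_) i <;> refine Fin.cases ?_ (fun j' => ?_) j <;> rfl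
  right_inv p := rfl

/-- Permutation of the rows. -/
def perm (n : ℕ) (σ : Equiv.Perm (Fin n)) : (Fin n → Fin n → ℝ) ≃ₗ[ℝ] (Fin n → Fin n → ℝ) where
  toFun x := fun i => x (σ i)
  invFun x := fun i => x (σ.symm i)
  map_add' x y := rfl
  map_smul' c x := rfl
  left_inv x := by ext i j; simp
  right_inv x := by ext i j; simp

/-- The Schur complement of the corner. -/
theorem det_schur {n : ℕ} (y : Matrix (Fin (n + 1)) (Fin (n + 1)) ℝ) (h : y 0 0 ≠ 0) :
    y.det = y 0 0 * (Matrix.of fun i j : Fin n => y i.succ j.succ - y i.succ 0 *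
      ((y 0 0)⁻¹ * y 0 j.succ)).det := by
  have h1 : y.det = (Matrix.of fun i j : Fin (n + 1) => y i j -
      (if i = 0 then 0 else y i 0 * (y 0 0)⁻¹) * y 0 j).det := by
    refine Matrix.det_eq_of_forall_row_eq_smul_add_const
      (fun i => if i = 0 then 0 else y i 0 * (y 0 0)⁻¹) 0 (by simp) ?_
    intro i j
    simp
  rw [h1, Matrix.det_succ_column_zero]
  rw [Finset.sum_eq_single 0]
  · simp only [Matrix.of_apply, Fin.val_zero, pow_zero, one_mul, if_true, zero_mul, sub_zero]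
    congr 1
    congr 1
    ext i j
    simp only [Matrix.submatrix_apply, Matrix.of_apply, Fin.succAbove_zero]
    rw [if_neg (Fin.succ_ne_zero i)]
    ring
  · intro i _ hi
    simp only [Matrix.of_apply]
    rw [if_neg hi]
    have : y i 0 - y i 0 * (y 0 0)⁻¹ * y 0 0 = 0 := by field_simp; ring
    rw [this]; ring
  · simp

/-- The matrix `[[1, v], [0, γ]]`. -/
def ext1 {n : ℕ} (v : Fin n → ℤ) (γ : SpecialLinearGroup (Fin n) ℤ) :
    SpecialLinearGroup (Fin (n + 1)) ℤ :=
  ⟨Matrix.of fun i j => Fin.cases (Fin.cases 1 v j) (fun i' => Fin.cases 0 (γ.1 i') j) i, by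
    rw [Matrix.det_succ_column_zero, Finset.sum_eq_single 0]
    · simp only [Matrix.of_apply, Fin.val_zero, pow_zero, one_mul]
      have : (Matrix.of fun i j : Fin (n + 1) => (Fin.cases (Fin.cases 1 v j)
          (fun i' => Fin.cases 0 (γ.1 i') j) i : ℤ)).submatrix (Fin.succAbove 0) Fin.succ = γ.1 := by
        ext i j
        simp [Matrix.submatrix_apply]
      rw [this, γ.2]
      simp
    · intro i _ hi
      obtain ⟨i', rfl⟩ := Fin.exists_succ_eq.2 hi
      simp
    · simp⟩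

/-- The base change of an integral matrix. -/
noncomputable abbrev rl {n : ℕ} (γ : SpecialLinearGroup (Fin n) ℤ) : Matrix (Fin n) (Fin n) ℝ :=
  γ.1.map (Int.cast : ℤ → ℝ)

theorem rl_mul {n : ℕ} (a b : SpecialLinearGroup (Fin n) ℤ) : rl (a * b) = rl a * rl b := by
  have := (Matrix.map_mul (L := a.1) (M := b.1) (f := Int.castRingHom ℝ))
  exact this

theorem det_rl {n : ℕ} (a : SpecialLinearGroup (Fin n) ℤ) : (rl a).det = 1 := by
  have h := (Int.castRingHom ℝ).map_det a.1
  rw [a.2] at h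
  simpa using h.symm

/-- **Reduction theory for `SL_n(ℤ)`** with Lebesgue measure. -/
theorem siegel (n : ℕ) : ∃ S : Set (Fin n → Fin n → ℝ), MeasurableSet S ∧ volume S < ⊤ ∧
    ∀ x : Matrix (Fin n) (Fin n) ℝ, x.det ≠ 0 → |x.det| ≤ 1 →
      ∃ γ : SpecialLinearGroup (Fin n) ℤ, (fun i j => (x * rl γ) i j) ∈ S := by
  induction n with
  | zero =>
    refine ⟨Set.univ, MeasurableSet.univ, ?_, fun x _ _ => ⟨1, Set.mem_univ _⟩⟩
    rw [← Set.pi_univ (Set.univ : Set (Fin 0)) , volume_pi, Measure.pi_pi]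
    simp
  | succ n ih =>
    obtain ⟨S, hSm, hS, hcov⟩ := ih
    refine ⟨⋃ i : Fin (n + 1), (perm (n + 1) (Equiv.swap 0 i)) ⁻¹' ((dec n) ⁻¹' (QQ S)), ?_, ?_, ?_⟩
    · refine MeasurableSet.iUnion fun i => ?_
      have h1 : Measurable (dec n) := (LinearMap.continuous_of_finiteDimensional
        (dec n).toLinearMap).measurable
      have h2 : Measurable (perm (n + 1) (Equiv.swap 0 i)) :=
        (LinearMap.continuous_of_finiteDimensional
        (perm (n + 1) (Equiv.swap 0 i)).toLinearMap).measurable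
      exact h2 (h1 (measurableSet_QQ hSm))
    · refine (measure_iUnion_le _).trans_lt ?_
      rw [tsum_fintype]
      refine ENNReal.sum_lt_top.2 fun i _ => ?_
      have h1 : Measurable (dec n) := (LinearMap.continuous_of_finiteDimensional
        (dec n).toLinearMap).measurable
      refine finite_preimage volume volume (perm (n + 1) (Equiv.swap 0 i)).toContinuousLinearEquiv
        (h1 (measurableSet_QQ hSm)) ?_
      have i0 : (volume : Measure (Fin n → Fin n → ℝ)).IsAddHaarMeasure :=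
        Measure.pi.isAddHaarMeasure _
      have i1 : (volume : Measure (ℝ × (Fin n → ℝ))).IsAddHaarMeasure :=
        inferInstanceAs ((volume : Measure ℝ).prod (volume : Measure (Fin n → ℝ))).IsAddHaarMeasure
      have i2 : (volume : Measure ((Fin n → ℝ) × (Fin n → Fin n → ℝ))).IsAddHaarMeasure :=
        inferInstanceAs ((volume : Measure (Fin n → ℝ)).prod
          (volume : Measure (Fin n → Fin n → ℝ))).IsAddHaarMeasure
      have i3 : (volume : Measure ((ℝ × (Fin n → ℝ)) ×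
          ((Fin n → ℝ) × (Fin n → Fin n → ℝ)))).IsAddHaarMeasure :=
        Measure.prod.instIsAddHaarMeasure (volume : Measure (ℝ × (Fin n → ℝ)))
          (volume : Measure ((Fin n → ℝ) × (Fin n → Fin n → ℝ)))
      exact finite_preimage volume volume (dec n).toContinuousLinearEquiv (measurableSet_QQ hSm)
        (volume_QQ hSm hS)
    · intro x hx0 hx1
      obtain ⟨z, hz0, hz⟩ := exists_small x hx0 hx1
      obtain ⟨γ₁, d, hd⟩ := exists_col z
      have hd0 : d ≠ 0 := by
        rintro rfl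
        apply hz0
        ext i
        rw [hd i]; simp
      obtain ⟨y, hy⟩ : ∃ y, y = x * rl γ₁ := ⟨_, rfl⟩
      have hycol : ∀ i, |y i 0| ≤ 2 := by
        intro i
        have h1 : (x *ᵥ fun j => (z j : ℝ)) i = d * y i 0 := by
          rw [hy]
          simp only [Matrix.mulVec, dotProduct, Matrix.mul_apply, Finset.mul_sum, rl,
            Matrix.map_apply]
          refine Finset.sum_congr rfl fun j _ => ?_
          rw [hd j]
          push_cast
          ring
        have h2 := hz i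
        rw [h1, abs_mul] at h2
        have h3 : (1 : ℝ) ≤ |(d : ℝ)| := by
          rw [← Int.cast_abs]
          exact_mod_cast Int.one_le_abs hd0
        nlinarith [abs_nonneg (y i 0)]
      have hydet : y.det = x.det := by rw [hy, Matrix.det_mul, det_rl, mul_one]
      obtain ⟨i0, hi0⟩ : ∃ i, y i 0 ≠ 0 := by
        by_contra hcon
        push Not at hcon
        apply hx0
        rw [← hydet]
        exact Matrix.det_eq_zero_of_column_eq_zero 0 hcon
      -- the permuted matrix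
      obtain ⟨w, hw⟩ : ∃ w : Matrix (Fin (n + 1)) (Fin (n + 1)) ℝ,
        w = y.submatrix (Equiv.swap 0 i0) id := ⟨_, rfl⟩
      have hw0 : w 0 0 ≠ 0 := by
        rw [hw]; simpa using hi0
      have hwcol : ∀ i, |w i 0| ≤ 2 := fun i => by rw [hw]; exact hycol _
      have hwdet : |w.det| = |x.det| := by
        rw [hw, Matrix.det_permute, hydet, abs_mul]
        have : |((Equiv.Perm.sign (Equiv.swap 0 i0) : ℤ) : ℝ)| = 1 := by
          rcases Int.units_eq_one_or (Equiv.Perm.sign (Equiv.swap 0 i0)) with h | h <;> rw [h] <;> simp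
        rw [this, one_mul]
      obtain ⟨X, hX⟩ : ∃ X : Matrix (Fin n) (Fin n) ℝ, X = (Matrix.of fun i j : Fin n =>
        w i.succ j.succ - w i.succ 0 * ((w 0 0)⁻¹ * w 0 j.succ)) := ⟨_, rfl⟩
      have hXdet : w.det = w 0 0 * X.det := by rw [hX]; exact det_schur w hw0
      have hX0 : X.det ≠ 0 := by
        intro h
        rw [h, mul_zero] at hXdet
        rw [hXdet, abs_zero] at hwdet
        exact hx0 (abs_eq_zero.1 hwdet.symm)
      obtain ⟨c, hc⟩ : ∃ c : ℝ, c = |w 0 0| ^ ((n : ℝ)⁻¹) := ⟨_, rfl⟩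
      have hc0 : 0 < c := by rw [hc]; exact Real.rpow_pos_of_pos (abs_pos.2 hw0) _
      have hcX : |(c • X).det| ≤ 1 := by
        rw [Matrix.det_smul, Fintype.card_fin, abs_mul, abs_pow, abs_of_pos hc0]
        rcases Nat.eq_zero_or_pos n with hn | hn
        · subst hn; simp
        · rw [hc, Real.rpow_inv_natCast_pow (abs_nonneg _) (by omega), ← abs_mul, ← hXdet, hwdet]
          exact hx1
      have hcX0 : (c • X).det ≠ 0 := by
        rw [Matrix.det_smul]
        exact mul_ne_zero (pow_ne_zero _ hc0.ne') hX0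
      obtain ⟨γ', hγ'⟩ := hcov (c • X) hcX0 hcX
      obtain ⟨v, hv⟩ : ∃ v : Fin n → ℤ, v = fun j =>
        -⌊(w 0 0)⁻¹ * ∑ k : Fin n, w 0 k.succ * rl γ' k j⌋ := ⟨_, rfl⟩
      refine ⟨γ₁ * ext1 v γ', ?_⟩
      rw [Set.mem_iUnion]
      refine ⟨i0, ?_⟩
      obtain ⟨u, hu⟩ : ∃ u : Matrix (Fin (n + 1)) (Fin (n + 1)) ℝ, u = w * rl (ext1 v γ') := ⟨_, rfl⟩
      have hperm : (perm (n + 1) (Equiv.swap 0 i0)) (fun i j => (x * rl (γ₁ * ext1 v γ')) i j) =
          fun i j => u i j := by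
        ext i j
        rw [rl_mul, ← Matrix.mul_assoc, ← hy, hu, hw]
        simp [perm, Matrix.mul_apply]
      change (dec n) ((perm (n + 1) (Equiv.swap 0 i0)) (fun i j => (x * rl (γ₁ * ext1 v γ')) i j)) ∈ QQ S
      rw [hperm]
      -- entries of `u`
      have hu0 : ∀ i, u i 0 = w i 0 := by
        intro i
        rw [hu, Matrix.mul_apply, Fin.sum_univ_succ]
        simp [rl, ext1]
      have hus : ∀ i (j : Fin n), u i j.succ = w i 0 * v j + ∑ k : Fin n, w i k.succ * rl γ' k j := by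
        intro i j
        rw [hu, Matrix.mul_apply, Fin.sum_univ_succ]
        simp [rl, ext1]
      have hr : ∀ j, (w 0 0)⁻¹ * u 0 j.succ = Int.fract ((w 0 0)⁻¹ *
          ∑ k : Fin n, w 0 k.succ * rl γ' k j) := by
        intro j
        rw [hus, mul_add, ← mul_assoc, inv_mul_cancel₀ hw0, one_mul, hv, Int.fract]
        push_cast
        ring
      refine ⟨?_, ?_, ?_, ?_, ?_⟩
      · change u 0 0 ≠ 0
        rw [hu0]; exact hw0
      · change |u 0 0| ≤ 2
        rw [hu0]; exact hwcol 0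
      · intro i
        change |u i.succ 0| ≤ 2
        rw [hu0]; exact hwcol _
      · intro j
        change (u 0 0)⁻¹ * u 0 j.succ ∈ Set.Icc (0 : ℝ) 1
        rw [hu0, hr]
        exact ⟨Int.fract_nonneg _, (Int.fract_lt_one _).le⟩
      · change (fun i j => |u 0 0| ^ ((n : ℝ)⁻¹) * (u i.succ j.succ - u i.succ 0 *
          ((u 0 0)⁻¹ * u 0 j.succ))) ∈ S
        have hfin : (fun i j : Fin n => |u 0 0| ^ ((n : ℝ)⁻¹) * (u i.succ j.succ - u i.succ 0 *
          ((u 0 0)⁻¹ * u 0 j.succ))) = fun i j => (c • X * rl γ') i j := by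
          ext i j
          rw [hu0, hu0, ← hc, hus, hus, Matrix.smul_mul, Matrix.smul_apply, smul_eq_mul]
          congr 1
          rw [Matrix.mul_apply]
          have h7 : ∀ k, X i k * rl γ' k j = w i.succ k.succ * rl γ' k j -
              w i.succ 0 * (w 0 0)⁻¹ * (w 0 k.succ * rl γ' k j) := by
            intro k; rw [hX, Matrix.of_apply]; ring
          rw [Finset.sum_congr rfl fun k _ => h7 k, Finset.sum_sub_distrib, ← Finset.mul_sum]
          field_simp
          ring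
        rw [hfin]
        exact hγ'

end cover

end Vale.Agent.P092.H671
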